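import Vale.Agent.P139Z.Good.Near

/-! Interior bounds for one profile, and the lower bound along the family. -/

open Set Filter Topology MeasureTheory Complex
open scoped NNReal ENNReal ComplexConjugate ContDiff

namespace Vale.Agent.P139Z.Good

section one

variable {m : ℕ} {β : ℝ} {G : ℝ → ℂ}

theorem norm_le_two (hm : 1 ≤ m) {z : ℂ} (h : ‖z‖ ^ (2 * m) ≤ 2) : ‖z‖ ≤ 2 := by
  rcases le_total ‖z‖ 1 with h1 | h1
  · linarith
  · exact (le_self_pow₀ h1 (by omega)).trans h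

theorem norm_rhs_le (hm : 1 ≤ m) (hβ : |β| ≤ 1) {z : ℂ} (h : ‖z‖ ^ (2 * m) ≤ 2) :
    ‖(‖z‖ : ℂ) ^ (2 * m) * z - I * Lam m β * z‖ ≤ 4 * ‖z‖ := by
  refine (norm_sub_le _ _).trans ?_
  rw [norm_mul, norm_mul, norm_mul, norm_pow, Complex.norm_real, norm_norm, Complex.norm_I,
    one_mul]
  have := norm_Lam_le hm hβ
  nlinarith [norm_nonneg z]

theorem hasDerivAt_deriv (h : IsProfile m β G) (ρ : ℝ) :
    HasDerivAt (deriv G) (iteratedDeriv 2 G ρ) ρ := by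
  have h2 : ContDiff ℝ (2 : ℕ) G := contDiff_iff_contDiffAt.mpr fun x => prof_cd h 2 x
  have h3 : Differentiable ℝ (iteratedDeriv 1 G) :=
    h2.differentiable_iteratedDeriv 1 (by exact_mod_cast Nat.lt_succ_self 1)
  rw [iteratedDeriv_one] at h3
  rw [iteratedDeriv_succ, iteratedDeriv_one]
  exact (h3 ρ).hasDerivAt

theorem hasDerivAt_G (h : IsProfile m β G) (ρ : ℝ) : HasDerivAt G (deriv G ρ) ρ :=
  (h.smooth.differentiable (by simp) ρ).hasDerivAt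

theorem deriv_le_one (h : IsProfile m β G) (hm : 1 ≤ m) (hβ : |β| ≤ 1)
    (hu : ∀ ρ ∈ Icc (0 : ℝ) 16, ‖G ρ‖ ^ (2 * m) ≤ 2) : ∀ ρ ∈ Icc (0 : ℝ) 16, ‖deriv G ρ‖ ≤ 1 := by
  set S : ℝ → ℂ := fun x => (‖G x‖ : ℂ) ^ (2 * m) * G x - I * Lam m β * G x with hS
  have hSb : ∀ ρ ∈ Icc (0 : ℝ) 16, ‖S ρ‖ ≤ 8 := fun ρ hρ =>
    (norm_rhs_le hm hβ (hu ρ hρ)).trans (by linarith [norm_le_two hm (hu ρ hρ)])
  have hode : ∀ ρ : ℝ, 0 ≤ ρ → 4 * ρ * iteratedDeriv 2 G ρ + (24 + I * ρ) * deriv G ρ = S ρ := by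
    intro ρ hρ
    rw [hS]
    simp only
    rw [← h.ode ρ hρ]
    ring
  have hW : ∀ ρ : ℝ, 0 ≤ ρ → HasDerivAt (fun x : ℝ => (x : ℂ) ^ 6 * cexp (I * x / 4) * deriv G x)
      ((ρ : ℂ) ^ 5 * cexp (I * ρ / 4) / 4 * S ρ) ρ := by
    intro ρ hρ
    have h1 : HasDerivAt (fun x : ℝ => (x : ℂ)) 1 ρ := Complex.ofRealCLM.hasDerivAt
    have h2 := ((h1.pow 6).mul (((h1.const_mul I).div_const 4).cexp)).mul (hasDerivAt_deriv h ρ)
    refine h2.congr_deriv ?_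
    rw [← hode ρ hρ]
    simp only [Pi.mul_apply, Pi.pow_apply]
    push_cast
    ring
  have hexp : ∀ x : ℝ, ‖cexp (I * x / 4)‖ = 1 := fun x => by
    rw [show I * (x : ℂ) / 4 = ((x / 4 : ℝ) : ℂ) * I by push_cast; ring,
      Complex.norm_exp_ofReal_mul_I]
  have hB : ∀ x : ℝ, HasDerivAt (fun y : ℝ => y ^ 6 / 3) (2 * x ^ 5) x := fun x => by
    refine ((hasDerivAt_pow 6 x).div_const 3).congr_deriv ?_
    push_cast
    ring
  have key := image_norm_le_of_norm_deriv_right_le_deriv_boundary (a := 0) (b := 16)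
    (f := fun x : ℝ => (x : ℂ) ^ 6 * cexp (I * x / 4) * deriv G x)
    (fun x hx => (hW x hx.1).continuousAt.continuousWithinAt)
    (fun x hx => (hW x hx.1).hasDerivWithinAt) (B := fun y : ℝ => y ^ 6 / 3) (by simp) hB
    (fun x hx => by
      rw [norm_mul, norm_div, norm_mul, hexp, norm_pow, Complex.norm_real, Real.norm_eq_abs,
        abs_of_nonneg hx.1]
      simp only [Complex.norm_ofNat]
      have := hSb x ⟨hx.1, hx.2.le⟩
      have h5 : 0 ≤ x ^ 5 := pow_nonneg hx.1 5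
      nlinarith)
  intro ρ hρ
  rcases hρ.1.eq_or_lt with h0 | h0
  · subst h0
    have e := hode 0 le_rfl
    simp only [Complex.ofReal_zero, mul_zero, zero_mul, zero_add, add_zero] at e
    have := hSb 0 hρ
    rw [← e, norm_mul] at this
    simp only [Complex.norm_ofNat] at this
    linarith
  · have := key hρ
    rw [norm_mul, norm_mul, hexp, norm_pow, Complex.norm_real, Real.norm_eq_abs,
      abs_of_pos h0] at this
    have h6 : 0 < ρ ^ 6 := pow_pos h0 6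
    nlinarith

theorem ratio_le {C₀ : ℝ} {z w : ℂ} (hz : 1 ≤ C₀ * ‖z‖) (hw : ‖w‖ ≤ 1) : ‖w / z‖ ≤ C₀ := by
  have hz0 : 0 < ‖z‖ := by
    rcases (norm_nonneg z).eq_or_lt with h | h
    · rw [← h] at hz
      linarith
    · exact h
  rw [norm_div, div_le_iff₀ hz0]
  linarith

theorem abs_sf_le {C₀ ρ : ℝ} (hρ : ρ ∈ Icc (0 : ℝ) 16) (hz : 1 ≤ C₀ * ‖G ρ‖)
    (hw : ‖deriv G ρ‖ ≤ 1) : |sf G ρ| ≤ 32 * C₀ := by
  have h1 := (Complex.abs_re_le_norm _).trans (ratio_le hz hw)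
  rw [sf, abs_mul, abs_of_nonneg (by linarith [hρ.1] : 0 ≤ 2 * ρ)]
  have := abs_nonneg (deriv G ρ / G ρ).re
  nlinarith [hρ.1, hρ.2]

theorem abs_deriv_sf_le (h : IsProfile m β G) (hm : 1 ≤ m) (hβ : |β| ≤ 1) {C₀ ρ : ℝ}
    (hC : 1 ≤ C₀) (hρ : ρ ∈ Icc (0 : ℝ) 16) (hu : ‖G ρ‖ ^ (2 * m) ≤ 2) (hz : 1 ≤ C₀ * ‖G ρ‖)
    (hw : ‖deriv G ρ‖ ≤ 1) : |deriv (sf G) ρ| ≤ 60 * C₀ ^ 2 := by
  have hG0 : G ρ ≠ 0 := by
    intro h0
    rw [h0, norm_zero, mul_zero] at hz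
    linarith
  have hq := ratio_le hz hw
  have h1 := (hasDerivAt_deriv h ρ).div (hasDerivAt_G h ρ) hG0
  have h2 : HasDerivAt (fun x => (deriv G x / G x).re)
      ((iteratedDeriv 2 G ρ * G ρ - deriv G ρ * deriv G ρ) / G ρ ^ 2).re ρ :=
    Complex.reCLM.hasFDerivAt.comp_hasDerivAt ρ h1
  have h3 := ((hasDerivAt_id ρ).const_mul 2).mul h2
  have h4 : deriv (sf G) ρ = 2 * (deriv G ρ / G ρ).re
      + 2 * ρ * ((iteratedDeriv 2 G ρ * G ρ - deriv G ρ * deriv G ρ) / G ρ ^ 2).re := by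
    have := h3.deriv
    simp only [id, mul_one] at this
    exact this
  have e : ((2 * ρ : ℝ) : ℂ) * ((iteratedDeriv 2 G ρ * G ρ - deriv G ρ * deriv G ρ) / G ρ ^ 2)
      = (((‖G ρ‖ : ℂ) ^ (2 * m) * G ρ - I * Lam m β * G ρ) / G ρ
        - (24 + I * ρ) * (deriv G ρ / G ρ)) / 2 - 2 * ρ * (deriv G ρ / G ρ) ^ 2 := by
    rw [← h.ode ρ hρ.1]
    push_cast
    field_simp
    ring
  have b1 : ‖((‖G ρ‖ : ℂ) ^ (2 * m) * G ρ - I * Lam m β * G ρ) / G ρ‖ ≤ 4 := by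
    rw [norm_div, div_le_iff₀ (norm_pos_iff.mpr hG0)]
    exact norm_rhs_le hm hβ hu
  have b2 : ‖(24 + I * ρ : ℂ)‖ ≤ 40 := by
    refine (norm_add_le _ _).trans ?_
    rw [norm_mul, Complex.norm_I, Complex.norm_real, Real.norm_eq_abs, abs_of_nonneg hρ.1]
    simp only [Complex.norm_ofNat]
    linarith [hρ.2]
  have b3 : ‖(24 + I * ρ : ℂ) * (deriv G ρ / G ρ)‖ ≤ 40 * C₀ := by
    rw [norm_mul]
    gcongr
  have b4 : ‖2 * (ρ : ℂ) * (deriv G ρ / G ρ) ^ 2‖ ≤ 32 * C₀ ^ 2 := by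
    rw [norm_mul, norm_mul, norm_pow, Complex.norm_real, Real.norm_eq_abs, abs_of_nonneg hρ.1]
    simp only [Complex.norm_ofNat]
    gcongr
    linarith [hρ.2]
  have b5 : |2 * ρ * ((iteratedDeriv 2 G ρ * G ρ - deriv G ρ * deriv G ρ) / G ρ ^ 2).re|
      ≤ (4 + 40 * C₀) / 2 + 32 * C₀ ^ 2 := by
    rw [← Complex.re_ofReal_mul, e]
    refine (Complex.abs_re_le_norm _).trans ((norm_sub_le _ _).trans (add_le_add ?_ b4))
    rw [norm_div]
    simp only [Complex.norm_ofNat]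
    gcongr
    exact (norm_sub_le _ _).trans (add_le_add b1 b3)
  have b6 : |2 * (deriv G ρ / G ρ).re| ≤ 2 * C₀ := by
    rw [abs_mul, abs_two]
    gcongr
    exact (Complex.abs_re_le_norm _).trans hq
  rw [h4]
  refine (abs_add_le _ _).trans ?_
  nlinarith

theorem tv_le {K a b : ℝ} (hK : ∀ ρ ∈ Icc (0 : ℝ) 16, |deriv (sf G) ρ| ≤ K) (ha : 0 ≤ a)
    (hab : a ≤ b) (hb : b ≤ 16) :
    ∫ ρ in (0 : ℝ)..b, |deriv (sf G) ρ|
      ≤ (∫ ρ in (0 : ℝ)..a, |deriv (sf G) ρ|) + K * (b - a) := by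
  have hi : ∀ c d : ℝ, 0 ≤ c → c ≤ d → d ≤ 16 →
      IntervalIntegrable (fun ρ => |deriv (sf G) ρ|) volume c d := by
    intro c d hc hcd hd
    rw [intervalIntegrable_iff_integrableOn_Ioc_of_le hcd]
    refine Measure.integrableOn_of_bounded (M := K) measure_Ioc_lt_top.ne
      (measurable_deriv _).abs.aestronglyMeasurable ?_
    refine (ae_restrict_iff' measurableSet_Ioc).mpr (Eventually.of_forall fun x hx => ?_)
    rw [Real.norm_eq_abs, abs_abs]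
    exact hK x ⟨hc.trans hx.1.le, hx.2.trans hd⟩
  rw [← intervalIntegral.integral_add_adjacent_intervals (hi 0 a le_rfl ha (hab.trans hb))
    (hi a b ha hab hb)]
  have := intervalIntegral.integral_mono_on hab (hi a b ha hab hb)
    (intervalIntegrable_const (c := K)) fun x hx => hK x ⟨ha.trans hx.1, hx.2.trans hb⟩
  rw [intervalIntegral.integral_const, smul_eq_mul] at this
  linarith

end one

variable {m : ℕ → ℕ} {β : ℕ → ℝ} {G : ℕ → ℝ → ℂ} {βi Z : ℝ} {U : ℝ → ℂ}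

theorem U_ne_zero (h : IsLimProf βi Z U) {ρ : ℝ} (hρ : 4 * Z ≤ ρ) : U ρ ≠ 0 := by
  have hZ := h.inZ.1
  have hd : ∀ x : ℝ, 4 * Z ≤ x → HasDerivAt
      (fun x : ℝ => 4 * x ^ 6 * (conj (U x) * deriv U x).im + x ^ 6 * ‖U x‖ ^ 2 / 2)
      (3 * x ^ 5 * ‖U x‖ ^ 2) x := by
    intro x hx
    have hx0 : 0 < x := by linarith
    have hc : ContDiffAt ℝ 2 U x :=
      (h.symb.smooth.contDiffAt (Ioi_mem_nhds hx0)).of_le
        (WithTop.coe_le_coe.mpr (le_top : (2 : ℕ∞) ≤ ⊤))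
    refine (hasDerivAt_mass (-I * βi) (B := 6) (by norm_num) hc).congr_deriv ?_
    rw [h.ode x hx0]
    have e : (-I * (βi : ℂ)).re = 0 := by simp
    rw [e, mul_zero, Complex.zero_im]
    push_cast
    ring
  have hmono : MonotoneOn
      (fun x : ℝ => 4 * x ^ 6 * (conj (U x) * deriv U x).im + x ^ 6 * ‖U x‖ ^ 2 / 2)
      (Ici (4 * Z)) := by
    refine monotoneOn_of_deriv_nonneg (convex_Ici _)
      (fun x hx => (hd x hx).continuousAt.continuousWithinAt)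
      (fun x hx => (hd x (interior_subset hx)).differentiableAt.differentiableWithinAt)
      fun x hx => ?_
    have hx' : 4 * Z ≤ x := interior_subset hx
    rw [(hd x hx').deriv]
    have : 0 ≤ x := by linarith
    positivity
  intro h0
  have := hmono (mem_Ici.mpr le_rfl) (mem_Ici.mpr hρ) hρ
  simp only [h.val, h.der, h0] at this
  simp at this
  have h6 : 0 < (4 * Z) ^ 6 := by positivity
  linarith

theorem lower_bd (h : IsFamily m β G βi Z U) :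
    ∃ C₀ : ℝ, 1 ≤ C₀ ∧ ∀ᶠ j in atTop, ∀ ρ ∈ Icc (0 : ℝ) 16, 1 ≤ C₀ * ‖G j ρ‖ := by
  have hZ := h.lim.inZ.2
  obtain ⟨x₀, hx₀, hmin⟩ := isCompact_Icc.exists_isMinOn (s := Icc (4 * Z) 16)
    (nonempty_Icc.mpr (by linarith)) (contOn_U h 16).1.norm
  have hμ : 0 < ‖U x₀‖ := norm_pos_iff.mpr (U_ne_zero h.lim hx₀.1)
  refine ⟨max 2 (2 / ‖U x₀‖), le_trans one_le_two (le_max_left _ _), ?_⟩
  filter_upwards [Metric.tendstoUniformlyOn_iff.mp h.conv_in (1 / 2) (by norm_num),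
    Metric.tendstoUniformlyOn_iff.mp (h.conv_out 16) (‖U x₀‖ / 2) (by positivity)]
    with j h1 h2 ρ hρ
  rcases le_total ρ (4 * Z) with h3 | h3
  · have := h1 ρ ⟨hρ.1, h3⟩
    rw [dist_eq_norm] at this
    have h4 := norm_sub_norm_le (1 : ℂ) (G j ρ)
    rw [norm_one] at h4
    calc (1 : ℝ) ≤ 2 * ‖G j ρ‖ := by linarith
      _ ≤ _ := by gcongr; exact le_max_left _ _
  · have := h2 ρ ⟨h3, hρ.2⟩
    rw [dist_eq_norm] at this
    have h4 := norm_sub_norm_le (U ρ) (G j ρ)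
    have h5 : ‖U x₀‖ ≤ ‖U ρ‖ := hmin ⟨h3, hρ.2⟩
    calc (1 : ℝ) = 2 / ‖U x₀‖ * (‖U x₀‖ / 2) := by field_simp
      _ ≤ 2 / ‖U x₀‖ * ‖G j ρ‖ := by gcongr; linarith
      _ ≤ _ := by gcongr; exact le_max_right _ _

end Vale.Agent.P139Z.Good
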