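import Vale.Agent.P139Z.ODefs

/-! Geometric bounds for derivatives of products and powers. -/

open Set Filter Topology MeasureTheory Complex
open scoped NNReal ENNReal ComplexConjugate ContDiff

namespace Vale.Agent.P139Z.Good

/-- The first `N` derivatives at `x` are bounded by `A σ^k`. -/
structure Gv (N : ℕ) (x : ℝ) (f : ℝ → ℂ) (A σ : ℝ) : Prop where
  sm : ContDiffAt ℝ N f x
  nn : 0 ≤ σ
  bd : ∀ k ≤ N, ‖iteratedDeriv k f x‖ ≤ A * σ ^ k

namespace Gv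

variable {N : ℕ} {x : ℝ} {f g : ℝ → ℂ} {A B σ τ : ℝ}

theorem nonneg (h : Gv N x f A σ) : 0 ≤ A := by
  have := h.bd 0 (Nat.zero_le _)
  simp only [pow_zero, mul_one] at this
  exact (norm_nonneg _).trans this

theorem const (N : ℕ) (x : ℝ) (c : ℂ) : Gv N x (fun _ => c) ‖c‖ 0 := by
  refine ⟨contDiffAt_const, le_rfl, fun k _ => ?_⟩
  rw [iteratedDeriv_const]
  split_ifs with hk
  · simp [hk]
  · simp only [norm_zero]
    positivity

theorem mul (hf : Gv N x f A σ) (hg : Gv N x g B τ) :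
    Gv N x (fun y => f y * g y) (A * B) (σ + τ) := by
  refine ⟨hf.sm.mul hg.sm, add_nonneg hf.nn hg.nn, fun k hk => ?_⟩
  have hk' : (k : WithTop ℕ∞) ≤ N := by exact_mod_cast hk
  rw [iteratedDeriv_fun_mul (hf.sm.of_le hk') (hg.sm.of_le hk'), add_pow, Finset.mul_sum]
  refine (norm_sum_le _ _).trans (Finset.sum_le_sum fun i hi => ?_)
  have hi' : i ≤ k := Nat.lt_succ_iff.mp (Finset.mem_range.mp hi)
  have h1 := hf.bd i (hi'.trans hk)
  have h2 := hg.bd (k - i) ((Nat.sub_le _ _).trans hk)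
  have hA := hf.nonneg
  have hσ := hf.nn
  rw [norm_mul, norm_mul, Complex.norm_natCast]
  calc (k.choose i : ℝ) * ‖iteratedDeriv i f x‖ * ‖iteratedDeriv (k - i) g x‖
      ≤ (k.choose i : ℝ) * (A * σ ^ i) * (B * τ ^ (k - i)) := by gcongr
    _ = A * B * (σ ^ i * τ ^ (k - i) * (k.choose i : ℝ)) := by ring

theorem pow (hf : Gv N x f A σ) (n : ℕ) : Gv N x (fun y => f y ^ n) (A ^ n) (n * σ) := by
  induction n with
  | zero => simpa using const N x 1
  | succ n ih =>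
    have := ih.mul hf
    simp only [← pow_succ] at this
    rw [Nat.cast_succ, add_mul, one_mul]
    exact this

theorem iteratedDeriv_conj (k : ℕ) (f : ℝ → ℂ) :
    iteratedDeriv k (fun y => conj (f y)) = fun y => conj (iteratedDeriv k f y) := by
  induction k with
  | zero => simp
  | succ k ih =>
    rw [iteratedDeriv_succ, ih, iteratedDeriv_succ]
    funext y
    exact deriv.star

theorem cj (hf : Gv N x f A σ) : Gv N x (fun y => conj (f y)) A σ := by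
  refine ⟨?_, hf.nn, fun k hk => ?_⟩
  · exact (Complex.conjCLE.contDiff.contDiffAt).comp x hf.sm
  · rw [iteratedDeriv_conj]
    simpa using hf.bd k hk

end Gv

theorem norm_pow_eq (z : ℂ) (n : ℕ) : (‖z‖ : ℂ) ^ (2 * n) = z ^ n * conj z ^ n := by
  rw [pow_mul, ← mul_pow, Complex.mul_conj, Complex.normSq_eq_norm_sq]
  push_cast
  ring

variable {N : ℕ} {x : ℝ} {G : ℝ → ℂ} {A σ : ℝ}

theorem gv_nl (h : Gv N x G A σ) (m : ℕ) :
    Gv N x (fun y => (‖G y‖ : ℂ) ^ (2 * m) * G y) (A ^ (2 * m + 1)) ((2 * m + 1) * σ) := by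
  have := ((h.pow m).mul (h.cj.pow m)).mul h
  simp only [← norm_pow_eq] at this
  have e1 : A ^ m * A ^ m * A = A ^ (2 * m + 1) := by ring
  have e2 : (m : ℝ) * σ + m * σ + σ = (2 * m + 1) * σ := by ring
  rwa [e1, e2] at this

theorem gv_pot1 (h : Gv N x G A σ) (m : ℕ) :
    Gv N x (fun y => pot1 m (G y)) ((m + 1) * A ^ (2 * m)) (2 * m * σ) := by
  have := (Gv.const N x ((m : ℂ) + 1)).mul ((h.pow m).mul (h.cj.pow m))
  simp only [← norm_pow_eq] at this
  have e0 : ‖(m : ℂ) + 1‖ = (m : ℝ) + 1 := by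
    rw [← Nat.cast_succ, Complex.norm_natCast, Nat.cast_succ]
  have e1 : A ^ m * A ^ m = A ^ (2 * m) := by ring
  have e2 : 0 + ((m : ℝ) * σ + m * σ) = 2 * m * σ := by ring
  rw [e0, e1, e2] at this
  exact this

theorem gv_pot2 (h : Gv N x G A σ) {m : ℕ} (hm : 1 ≤ m) :
    Gv N x (fun y => pot2 m (G y)) (m * A ^ (2 * m)) (2 * m * σ) := by
  obtain ⟨n, rfl⟩ : ∃ n, m = n + 1 := ⟨m - 1, by omega⟩
  have := ((Gv.const N x ((n + 1 : ℕ) : ℂ)).mul ((h.pow n).mul (h.cj.pow n))).mul (h.pow 2)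
  simp only [← norm_pow_eq] at this
  have e0 : ‖((n + 1 : ℕ) : ℂ)‖ = ((n + 1 : ℕ) : ℝ) := Complex.norm_natCast _
  have e1 : ((n + 1 : ℕ) : ℝ) * (A ^ n * A ^ n) * A ^ 2 = ((n + 1 : ℕ) : ℝ) * A ^ (2 * (n + 1)) := by
    ring
  have e2 : 0 + ((n : ℝ) * σ + n * σ) + ((2 : ℕ) : ℝ) * σ = 2 * ((n + 1 : ℕ) : ℝ) * σ := by
    push_cast
    ring
  rw [e0, e1, e2] at this
  simpa only [pot2, Nat.add_sub_cancel] using this

/-- From symbol bounds to a geometric bound. -/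
theorem gv_of_bounds {θ C t s : ℝ} (hG : ContDiffAt ℝ N G x) (hθ : 1 / 2 ≤ θ) (hC : 1 ≤ C)
    (ht : 0 ≤ t) (hs : 0 ≤ s) (h0 : ‖G x‖ ≤ θ * t)
    (hk : ∀ k, 1 ≤ k → k ≤ N → ‖iteratedDeriv k G x‖ ≤ C * (t * s ^ k)) :
    Gv N x G (θ * t) (2 * C * s) := by
  refine ⟨hG, by positivity, fun k hkN => ?_⟩
  rcases Nat.eq_zero_or_pos k with rfl | hpos
  · simpa using h0
  · refine (hk k hpos hkN).trans ?_
    have h2 : 2 * C ≤ (2 * C) ^ k := le_self_pow₀ (by linarith) (by omega)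
    have h3 : C ≤ θ * (2 * C) ^ k := by nlinarith
    calc C * (t * s ^ k) ≤ θ * (2 * C) ^ k * (t * s ^ k) := by gcongr
      _ = θ * t * (2 * C * s) ^ k := by rw [mul_pow (2 * C)]; ring

theorem tendsto_small {θ : ℝ} (h0 : 0 ≤ θ) (h1 : θ < 1) (k : ℕ) :
    Tendsto (fun n : ℕ => (2 * (n : ℝ) + 1) ^ k * θ ^ (2 * n)) atTop (𝓝 0) := by
  have hr : |θ ^ 2| < 1 := by
    rw [abs_of_nonneg (by positivity)]
    nlinarith
  have h := (tendsto_pow_const_mul_const_pow_of_abs_lt_one k hr).const_mul (3 ^ k)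
  rw [mul_zero] at h
  refine squeeze_zero' (Eventually.of_forall fun n => by positivity) ?_ h
  filter_upwards [eventually_ge_atTop 1] with n hn
  have hn' : (1 : ℝ) ≤ n := by exact_mod_cast hn
  rw [pow_mul, ← mul_assoc, ← mul_pow]
  gcongr
  linarith

end Vale.Agent.P139Z.Good
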