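import Vale.Agent.P139Z.OCalc
import Vale.Agent.P139Z.Good.Pow

/-! Symbol bounds up to the wall and smallness of the exterior potentials. -/

open Set Filter Topology MeasureTheory Complex
open scoped NNReal ENNReal ComplexConjugate ContDiff

namespace Vale.Agent.P139Z.Good

variable {m : ℕ → ℕ} {β : ℕ → ℝ} {G : ℕ → ℝ → ℂ} {βi Z : ℝ} {U : ℝ → ℂ}

theorem ev_m (h : IsFamily m β G βi Z U) : ∀ᶠ j in atTop, 1 ≤ m j :=
  h.m_tendsto.eventually (eventually_ge_atTop 1)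

theorem ev_beta (h : IsFamily m β G βi Z U) : ∀ᶠ j in atTop, |β j| ≤ 1 := by
  have h1 := h.lim.inB.1
  have h2 := h.lim.inB.2
  have : |βi| < 1 := by rw [abs_lt]; constructor <;> linarith
  exact (h.β_tendsto.abs.eventually (gt_mem_nhds this)).mono fun _ hj => hj.le

theorem norm_Lam_le {m : ℕ} {β : ℝ} (hm : 1 ≤ m) (hβ : |β| ≤ 1) : ‖Lam m β‖ ≤ 2 := by
  have hm' : (1 : ℝ) ≤ m := by exact_mod_cast hm
  unfold Lam
  refine (norm_sub_le _ _).trans ?_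
  have e1 : ‖1 / (2 * (m : ℂ))‖ ≤ 1 := by
    rw [norm_div, norm_one, norm_mul, Complex.norm_natCast, Complex.norm_two,
      div_le_one (by positivity)]
    linarith
  have e2 : ‖I * (β : ℂ)‖ ≤ 1 := by
    rw [norm_mul, Complex.norm_I, one_mul, Complex.norm_real, Real.norm_eq_abs]
    exact hβ
  linarith

theorem prof_cd {m : ℕ} {β : ℝ} {G : ℝ → ℂ} (h : IsProfile m β G) (n : ℕ) (ρ : ℝ) :
    ContDiffAt ℝ n G ρ :=
  h.smooth.contDiffAt.of_le (by exact_mod_cast le_top)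

theorem Mop_prof {m : ℕ} {β : ℝ} {G : ℝ → ℂ} (h : IsProfile m β G) {ρ : ℝ} (hρ : 0 ≤ ρ) :
    Mop (Lam m β) 6 G ρ = (‖G ρ‖ : ℂ) ^ (2 * m) * G ρ := by
  rw [← h.ode ρ hρ, Mop]
  push_cast
  ring

/-- The gap below one, with a constant at least one half. -/
theorem gap_theta (h : IsFamily m β G βi Z U) {δ : ℝ} (hδ : 0 < δ) :
    ∃ θ : ℝ, 1 / 2 ≤ θ ∧ θ < 1 ∧ ∀ᶠ j in atTop, ∀ ρ : ℝ, 4 * Z + δ ≤ ρ →
      ‖G j ρ‖ ≤ θ * ρ ^ (-(1 / (2 * (m j : ℝ)))) ∧ ‖G j ρ‖ ≤ θ := by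
  obtain ⟨δ', hδ', hg⟩ := h.gap δ hδ
  have hZ := h.lim.inZ.1
  refine ⟨max (1 - δ') (1 / 2), le_max_right _ _, max_lt (by linarith) (by norm_num), ?_⟩
  filter_upwards [hg] with j hj ρ hρ
  have hρ1 : 1 ≤ ρ := by linarith
  have h1 := (hj ρ hρ).trans (le_max_left _ (1 / 2))
  have hp : 0 < ρ ^ (1 / (2 * (m j : ℝ))) := Real.rpow_pos_of_pos (by linarith) _
  have hge : 1 ≤ ρ ^ (1 / (2 * (m j : ℝ))) := Real.one_le_rpow hρ1 (by positivity)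
  constructor
  · rw [Real.rpow_neg (by linarith), ← div_eq_mul_inv, le_div_iff₀ hp, mul_comm]
    exact h1
  · nlinarith [norm_nonneg (G j ρ)]

theorem deriv_step {m : ℕ} {β : ℝ} {G : ℝ → ℂ} (h : IsProfile m β G) (hm : 1 ≤ m) (hβ : |β| ≤ 1)
    {ρ R : ℝ} (h1 : 1 ≤ ρ) (hR : ρ ≤ R) (n : ℕ) {C K : ℝ}
    (hn : ‖iteratedDeriv n G ρ‖ ≤ C) (hn1 : ‖iteratedDeriv (n + 1) G ρ‖ ≤ C)
    (hN : ‖iteratedDeriv n (fun y => (‖G y‖ : ℂ) ^ (2 * m) * G y) ρ‖ ≤ K) :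
    ‖iteratedDeriv (n + 2) G ρ‖ ≤ K + (4 * (6 + n) + R) * C + (2 + n) * C := by
  have hsm : ContDiffAt ℝ (n + 2 : ℕ) G ρ := prof_cd h _ _
  have e := iteratedDeriv_Mop (Lam m β) 6 n hsm
  have hev : Mop (Lam m β) 6 G =ᶠ[𝓝 ρ] fun y => (‖G y‖ : ℂ) ^ (2 * m) * G y := by
    filter_upwards [Ioi_mem_nhds (show (0 : ℝ) < ρ by linarith)] with y hy
    exact Mop_prof h (le_of_lt hy)
  rw [hev.iteratedDeriv_eq, Mop] at e
  have e2 : iteratedDeriv 2 (iteratedDeriv n G) ρ = iteratedDeriv (n + 2) G ρ := by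
    rw [iteratedDeriv_succ, iteratedDeriv_one, ← iteratedDeriv_succ, ← iteratedDeriv_succ]
  have e1 : deriv (iteratedDeriv n G) ρ = iteratedDeriv (n + 1) G ρ := by
    rw [← iteratedDeriv_succ]
  rw [e2, e1] at e
  have hC : 0 ≤ C := (norm_nonneg _).trans hn
  have e3 : 4 * (ρ : ℂ) * iteratedDeriv (n + 2) G ρ
      = iteratedDeriv n (fun y => (‖G y‖ : ℂ) ^ (2 * m) * G y) ρ
        - (4 * ((6 + n : ℕ) : ℂ) + I * ρ) * iteratedDeriv (n + 1) G ρ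
        - I * (Lam m β + n) * iteratedDeriv n G ρ := by
    rw [e]; ring
  have b1 : ‖4 * ((6 + n : ℕ) : ℂ) + I * ρ‖ ≤ 4 * (6 + n) + R := by
    refine (norm_add_le _ _).trans ?_
    rw [norm_mul, norm_mul, Complex.norm_natCast, Complex.norm_I, Complex.norm_real,
      Real.norm_eq_abs, abs_of_pos (show (0 : ℝ) < ρ by linarith)]
    simp only [Complex.norm_ofNat]
    push_cast
    linarith
  have b2 : ‖I * (Lam m β + n)‖ ≤ 2 + n := by
    rw [norm_mul, Complex.norm_I, one_mul]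
    refine (norm_add_le _ _).trans ?_
    rw [Complex.norm_natCast]
    linarith [norm_Lam_le hm hβ]
  have b3 : ‖4 * (ρ : ℂ) * iteratedDeriv (n + 2) G ρ‖
      ≤ K + (4 * (6 + n) + R) * C + (2 + n) * C := by
    rw [e3]
    refine (norm_sub_le _ _).trans (add_le_add ((norm_sub_le _ _).trans (add_le_add hN ?_)) ?_)
    · rw [norm_mul]
      exact mul_le_mul b1 hn1 (norm_nonneg _) ((norm_nonneg _).trans b1)
    · rw [norm_mul]
      exact mul_le_mul b2 hn (norm_nonneg _) ((norm_nonneg _).trans b2)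
  rw [norm_mul, norm_mul, Complex.norm_real, Real.norm_eq_abs,
    abs_of_pos (show (0 : ℝ) < ρ by linarith)] at b3
  simp only [Complex.norm_ofNat] at b3
  nlinarith [norm_nonneg (iteratedDeriv (n + 2) G ρ)]

theorem contOn_U (h : IsFamily m β G βi Z U) (R : ℝ) :
    ContinuousOn U (Icc (4 * Z) R) ∧ ContinuousOn (deriv U) (Icc (4 * Z) R) := by
  have hZ := h.lim.inZ.1
  have hs : Icc (4 * Z) R ⊆ Ioi 0 := fun x hx => by
    have := hx.1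
    simp only [mem_Ioi]
    linarith
  exact ⟨h.lim.symb.smooth.continuousOn.mono hs,
    (h.lim.symb.smooth.continuousOn_deriv_of_isOpen isOpen_Ioi (by simp)).mono hs⟩

theorem compact_bd (h : IsFamily m β G βi Z U) {δ : ℝ} (hδ : 0 < δ) (R : ℝ) (n : ℕ) :
    ∃ C : ℝ, 1 ≤ C ∧ ∀ᶠ j in atTop, ∀ ρ ∈ Icc (4 * Z + δ) R, ∀ k ≤ n + 1,
      ‖iteratedDeriv k (G j) ρ‖ ≤ C := by
  obtain ⟨θ, hθ, hθ1, hg⟩ := gap_theta h hδ
  have hZ := h.lim.inZ.1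
  induction n with
  | zero =>
    obtain ⟨M, hM⟩ := isCompact_Icc.exists_bound_of_continuousOn (contOn_U h R).2
    refine ⟨max 1 (M + 1), le_max_left _ _, ?_⟩
    filter_upwards [hg, Metric.tendstoUniformlyOn_iff.mp (h.conv_out' R) 1 one_pos]
      with j hj hj' ρ hρ k hk
    have hρ' : ρ ∈ Icc (4 * Z) R := ⟨by linarith [hρ.1], hρ.2⟩
    interval_cases k
    · rw [iteratedDeriv_zero]
      exact ((hj ρ hρ.1).2.trans hθ1.le).trans (le_max_left _ _)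
    · rw [iteratedDeriv_one]
      have h1 := hj' ρ hρ'
      rw [dist_comm, dist_eq_norm] at h1
      have h2 := hM ρ hρ'
      have h3 := norm_sub_norm_le (deriv (G j) ρ) (deriv U ρ)
      exact le_trans (by linarith) (le_max_right _ _)
  | succ n ih =>
    obtain ⟨C, hC, hb⟩ := ih
    have hs := ((tendsto_small (by linarith) hθ1 n).comp h.m_tendsto).eventually
      (gt_mem_nhds one_pos)
    refine ⟨max C ((2 * C) ^ n + (4 * (6 + n) + R) * C + (2 + n) * C),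
      hC.trans (le_max_left _ _), ?_⟩
    filter_upwards [hg, hb, hs, ev_m h, ev_beta h] with j hj hbj hsj hm hβ ρ hρ k hk
    rcases Nat.lt_or_ge k (n + 2) with hlt | hge
    · exact (hbj ρ hρ k (by omega)).trans (le_max_left _ _)
    obtain rfl : k = n + 2 := by omega
    refine le_trans ?_ (le_max_right _ _)
    refine deriv_step (h.prof j) hm hβ (by linarith [hρ.1]) hρ.2 n (hbj ρ hρ n (by omega))
      (hbj ρ hρ (n + 1) le_rfl) ?_
    have hgv : Gv n ρ (G j) (θ * 1) (2 * C * 1) := by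
      refine gv_of_bounds (prof_cd (h.prof j) _ _) hθ hC
        zero_le_one zero_le_one (by simpa using (hj ρ hρ.1).2) fun k _ hk => ?_
      simpa using hbj ρ hρ k (by omega)
    refine ((gv_nl hgv (m j)).bd n le_rfl).trans ?_
    simp only [Function.comp] at hsj
    have hθ0 : 0 ≤ θ := by linarith
    have h2 : θ * ((2 * (m j : ℝ) + 1) ^ n * θ ^ (2 * m j)) ≤ 1 := by
      have : 0 ≤ (2 * (m j : ℝ) + 1) ^ n * θ ^ (2 * m j) := by positivity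
      nlinarith
    calc (θ * 1) ^ (2 * m j + 1) * ((2 * (m j : ℝ) + 1) * (2 * C * 1)) ^ n
        = θ * ((2 * (m j : ℝ) + 1) ^ n * θ ^ (2 * m j)) * (2 * C) ^ n := by
          rw [mul_one, mul_one, mul_pow]; ring
      _ ≤ 1 * (2 * C) ^ n := by gcongr
      _ = (2 * C) ^ n := one_mul _

theorem symb_near (h : IsFamily m β G βi Z U) {δ : ℝ} (hδ : 0 < δ) (i : ℕ) :
    ∃ C : ℝ, ∀ᶠ j in atTop, ∀ ρ : ℝ, 4 * Z + δ ≤ ρ →
      ‖iteratedDeriv i (G j) ρ‖ ≤ C * ρ ^ (-(1 / (2 * (m j : ℝ)) + i)) := by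
  obtain ⟨ρ₃, hs⟩ := h.symb
  obtain ⟨C₁, hC₁⟩ := hs i
  have hZ := h.lim.inZ.1
  set R := max ρ₃ 1 with hR
  have hR1 : 1 ≤ R := le_max_right _ _
  obtain ⟨C₂, hC₂, hb⟩ := compact_bd h hδ R i
  refine ⟨max C₁ (C₂ * R ^ ((1 : ℝ) + i)), ?_⟩
  filter_upwards [hb, ev_m h] with j hj hm ρ hρ
  have hρ1 : 1 ≤ ρ := by linarith
  have hp : 0 < ρ ^ (-(1 / (2 * (m j : ℝ)) + i)) := Real.rpow_pos_of_pos (by linarith) _
  rcases le_total ρ₃ ρ with h3 | h3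
  · exact (hC₁ j ρ h3).trans (by gcongr; exact le_max_left _ _)
  · have hρR : ρ ≤ R := h3.trans (le_max_left _ _)
    refine (hj ρ ⟨hρ, hρR⟩ i (by omega)).trans
      (le_trans ?_ (mul_le_mul_of_nonneg_right (le_max_right _ _) hp.le))
    have hm' : (1 : ℝ) ≤ m j := by exact_mod_cast hm
    have ha : 1 / (2 * (m j : ℝ)) ≤ 1 := by
      rw [div_le_one (by positivity)]
      linarith
    have h1 : ρ ^ (1 / (2 * (m j : ℝ)) + i) ≤ R ^ ((1 : ℝ) + i) :=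
      (Real.rpow_le_rpow (by linarith) hρR (by positivity)).trans
        (Real.rpow_le_rpow_of_exponent_le hR1 (by linarith))
    have h2 : 0 < ρ ^ (1 / (2 * (m j : ℝ)) + i) := Real.rpow_pos_of_pos (by linarith) _
    rw [Real.rpow_neg (by linarith), mul_assoc, ← div_eq_mul_inv]
    have h4 : 1 ≤ R ^ ((1 : ℝ) + i) / ρ ^ (1 / (2 * (m j : ℝ)) + i) := by
      rw [one_le_div h2]
      exact h1
    nlinarith

theorem symb_upto (h : IsFamily m β G βi Z U) {δ : ℝ} (hδ : 0 < δ) (n : ℕ) :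
    ∃ C : ℝ, 1 ≤ C ∧ ∀ᶠ j in atTop, ∀ ρ : ℝ, 4 * Z + δ ≤ ρ → ∀ i ≤ n,
      ‖iteratedDeriv i (G j) ρ‖ ≤ C * (ρ ^ (-(1 / (2 * (m j : ℝ)))) * ρ⁻¹ ^ i) := by
  have hZ := h.lim.inZ.1
  choose C hC using fun i => symb_near h hδ i
  refine ⟨1 + ∑ i ∈ Finset.range (n + 1), |C i|, le_add_of_nonneg_right (by positivity), ?_⟩
  have hall : ∀ᶠ j in atTop, ∀ i ∈ Finset.range (n + 1), ∀ ρ : ℝ, 4 * Z + δ ≤ ρ →
      ‖iteratedDeriv i (G j) ρ‖ ≤ C i * ρ ^ (-(1 / (2 * (m j : ℝ)) + i)) :=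
    (Finset.eventually_all _).mpr fun i _ => hC i
  filter_upwards [hall] with j hj ρ hρ i hi
  have hρ0 : 0 < ρ := by linarith
  have hi' : i ∈ Finset.range (n + 1) := Finset.mem_range.mpr (by omega)
  refine (hj i hi' ρ hρ).trans ?_
  have e : ρ ^ (-(1 / (2 * (m j : ℝ)) + i)) = ρ ^ (-(1 / (2 * (m j : ℝ)))) * ρ⁻¹ ^ i := by
    rw [neg_add, Real.rpow_add hρ0, Real.rpow_neg hρ0.le (i : ℝ), Real.rpow_natCast, inv_pow]
  rw [e]
  have h1 : |C i| ≤ ∑ i ∈ Finset.range (n + 1), |C i| :=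
    Finset.single_le_sum (f := fun i => |C i|) (fun _ _ => abs_nonneg _) hi'
  have h2 := le_abs_self (C i)
  gcongr
  linarith

theorem goodExt (h : IsFamily m β G βi Z U) {ε δ : ℝ} (hε : 0 < ε) (hδ : 0 < δ) :
    ∀ᶠ j in atTop, GoodExt (m j) (G j) ε (4 * Z + δ) := by
  obtain ⟨θ, hθ, hθ1, hg⟩ := gap_theta h hδ
  obtain ⟨C, hC, hb⟩ := symb_upto h hδ 10
  have hZ := h.lim.inZ.1
  have hθ0 : 0 ≤ θ := by linarith
  have hs := (((tendsto_small hθ0 hθ1 11).comp h.m_tendsto).mul_const ((2 * C) ^ 10))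
  rw [zero_mul] at hs
  filter_upwards [hg, hb, hs.eventually (gt_mem_nhds hε), ev_m h] with j hj hbj hsj hm
  simp only [Function.comp] at hsj
  have hm' : (1 : ℝ) ≤ m j := by exact_mod_cast hm
  have key : ∀ ρ : ℝ, 4 * Z + δ ≤ ρ →
      Gv 10 ρ (G j) (θ * ρ ^ (-(1 / (2 * (m j : ℝ))))) (2 * C * ρ⁻¹) := by
    intro ρ hρ
    have hρ0 : 0 < ρ := by linarith
    exact gv_of_bounds (prof_cd (h.prof j) _ _) hθ hC
      (by positivity) (by positivity) (hj ρ hρ).1 fun k _ hk => hbj ρ hρ k hk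
  have fin : ∀ i : ℕ, i ≤ 10 → ∀ ρ : ℝ, 4 * Z + δ ≤ ρ → ∀ c : ℝ, 0 ≤ c → c ≤ m j + 1 →
      c * (θ * ρ ^ (-(1 / (2 * (m j : ℝ))))) ^ (2 * m j) * (2 * (m j : ℝ) * (2 * C * ρ⁻¹)) ^ i
        ≤ ε * ρ ^ (-(1 + (i : ℝ))) := by
    intro i hi ρ hρ c hc0 hc
    have hρ0 : 0 < ρ := by linarith
    have e1 : (ρ ^ (-(1 / (2 * (m j : ℝ))))) ^ (2 * m j) = ρ⁻¹ := by
      rw [← Real.rpow_natCast, ← Real.rpow_mul hρ0.le, ← Real.rpow_neg_one]
      congr 1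
      push_cast
      field_simp
    have e2 : ρ ^ (-(1 + (i : ℝ))) = ρ⁻¹ * ρ⁻¹ ^ i := by
      rw [neg_add, Real.rpow_add hρ0, Real.rpow_neg_one, Real.rpow_neg hρ0.le (i : ℝ),
        Real.rpow_natCast, inv_pow]
    rw [mul_pow θ, e1, e2]
    have b1 : c * (2 * (m j : ℝ)) ^ i ≤ (2 * (m j : ℝ) + 1) ^ 11 := by
      calc c * (2 * (m j : ℝ)) ^ i ≤ (2 * (m j : ℝ) + 1) * (2 * (m j : ℝ) + 1) ^ i := by
            gcongr <;> linarith
        _ = (2 * (m j : ℝ) + 1) ^ (i + 1) := by ring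
        _ ≤ (2 * (m j : ℝ) + 1) ^ 11 := pow_le_pow_right₀ (by linarith) (by omega)
    have b2 : (2 * C) ^ i ≤ (2 * C) ^ 10 := pow_le_pow_right₀ (by linarith) hi
    calc c * (θ ^ (2 * m j) * ρ⁻¹) * (2 * (m j : ℝ) * (2 * C * ρ⁻¹)) ^ i
        = c * (2 * (m j : ℝ)) ^ i * θ ^ (2 * m j) * (2 * C) ^ i * (ρ⁻¹ * ρ⁻¹ ^ i) := by
          rw [mul_pow (2 * (m j : ℝ)), mul_pow (2 * C)]; ring
      _ ≤ (2 * (m j : ℝ) + 1) ^ 11 * θ ^ (2 * m j) * (2 * C) ^ 10 * (ρ⁻¹ * ρ⁻¹ ^ i) := by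
          gcongr
      _ ≤ ε * (ρ⁻¹ * ρ⁻¹ ^ i) := by gcongr
  constructor
  · intro i hi ρ hρ
    exact ((gv_pot1 (key ρ hρ) (m j)).bd i hi).trans (fin i hi ρ hρ _ (by positivity) le_rfl)
  · intro i hi ρ hρ
    exact ((gv_pot2 (key ρ hρ) hm).bd i hi).trans (fin i hi ρ hρ _ (by positivity) (by linarith))

end Vale.Agent.P139Z.Good
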